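import Crest.Agent.N067.X2.Defs
import Crest.Agent.N067.M.Wedge0
import Crest.Agent.N067.M.FlatU
import Crest.Agent.N067.V.BallM

-- ▼ part N067/X2/Jet
section

/-!
# Row 67, block X2 (helper63): calculus of jets `(value, gradient, Lm)` and Frobenius norms
-/

set_option autoImplicit false

open MeasureTheory Laplacian InnerProductSpace Topology Filter Set Metric
open scoped RealInnerProductSpace ContDiff Gradient

namespace Crest.Agent.N067.X2

open Crest.Agent.R077 Crest.Agent.N067.V Crest.Agent.N067.M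

noncomputable section

variable {n : ℕ} {v f f' : EE n → ℝ} {x g g' : EE n} {a a' l l' : ℝ}

/-- the jet of `f` at `x` -/
structure Jt (v : EE n → ℝ) (x : EE n) (f : EE n → ℝ) (a : ℝ) (g : EE n) (l : ℝ) : Prop where
  c2 : ContDiffAt ℝ 2 f x
  val : f x = a
  grad : ∇ f x = g
  lm : Lm v f x = l

namespace Jt

theorem diff (h : Jt v x f a g l) : DifferentiableAt ℝ f x := h.c2.differentiableAt (by simp)

theorem of (v : EE n → ℝ) (h : ContDiffAt ℝ 2 f x) : Jt v x f (f x) (∇ f x) (Lm v f x) :=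
  ⟨h, rfl, rfl, rfl⟩

theorem cast (h : Jt v x f a g l) (h1 : a = a') (h2 : g = g') (h3 : l = l') :
    Jt v x f a' g' l' := h1 ▸ h2 ▸ h3 ▸ h

theorem congr (h : Jt v x f a g l) (e : f' =ᶠ[𝓝 x] f) : Jt v x f' a g l :=
  ⟨h.c2.congr_of_eventuallyEq e, e.self_of_nhds.trans h.val, (grad_congr e).trans h.grad,
    (Lm_congr e).trans h.lm⟩

theorem const (c : ℝ) : Jt v x (fun _ => c) c 0 0 :=
  ⟨contDiffAt_const, rfl, gradient_fun_const x c, Lm_const c⟩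

theorem add (h : Jt v x f a g l) (h' : Jt v x f' a' g' l') :
    Jt v x (fun y => f y + f' y) (a + a') (g + g') (l + l') :=
  ⟨h.c2.add h'.c2, by rw [h.val, h'.val], by rw [grad_add h.diff h'.diff, h.grad, h'.grad],
    by rw [Lm_add h.c2 h'.c2, h.lm, h'.lm]⟩

theorem sub (h : Jt v x f a g l) (h' : Jt v x f' a' g' l') :
    Jt v x (fun y => f y - f' y) (a - a') (g - g') (l - l') :=
  ⟨h.c2.sub h'.c2, by rw [h.val, h'.val], by rw [grad_sub h.diff h'.diff, h.grad, h'.grad],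
    by rw [Lm_sub h.c2 h'.c2, h.lm, h'.lm]⟩

theorem mul (h : Jt v x f a g l) (h' : Jt v x f' a' g' l') :
    Jt v x (fun y => f y * f' y) (a * a') (a' • g + a • g') (l * a' + 2 * ⟪g, g'⟫ + a * l') :=
  ⟨h.c2.mul h'.c2, by rw [h.val, h'.val],
    by rw [grad_mul h.diff h'.diff, h.grad, h'.grad, h.val, h'.val],
    by rw [Lm_mul h.c2 h'.c2, gin_eq, h.lm, h'.lm, h.grad, h'.grad, h.val, h'.val]⟩

theorem cmul (h : Jt v x f a g l) (c : ℝ) : Jt v x (fun y => c * f y) (c * a) (c • g) (c * l) :=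
  ((const c).mul h).cast rfl (by simp) (by simp)

theorem inv (h : Jt v x f a g l) (h0 : a ≠ 0) :
    Jt v x (fun y => (f y)⁻¹) a⁻¹ (-(a ^ 2)⁻¹ • g) (-l / a ^ 2 + 2 * ‖g‖ ^ 2 / a ^ 3) := by
  have h1 : f x ≠ 0 := h.val ▸ h0
  exact ⟨h.c2.inv h1, by rw [h.val], by rw [grad_inv h.diff h1, h.val, h.grad],
    by rw [Lm_inv h.c2 h1, gsq_eq, h.val, h.grad, h.lm]⟩

/-- division of jets, as an equation -/
theorem of_mul {b : ℝ} {F : EE n → ℝ} {G : EE n} {m : ℝ} (h : Jt v x F b G m)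
    (h' : Jt v x f' a' g' l') (h0 : a' ≠ 0) (c2 : ContDiffAt ℝ 2 f x)
    (e : F =ᶠ[𝓝 x] fun y => f y * f' y) (h1 : b = a * a') (h2 : G = a' • g + a • g')
    (h3 : m = l * a' + 2 * ⟪g, g'⟫ + a * l') : Jt v x f a g l := by
  have k := ((of v c2).mul h').congr e
  have k1 : f x = a := mul_right_cancel₀ h0 (by rw [← h1, ← h.val, k.val])
  have k2 : ∇ f x = g := by
    have := k.grad.symm.trans (h.grad.trans h2)
    rw [k1, add_left_inj] at this
    exact smul_right_injective _ h0 this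
  refine ⟨c2, k1, k2, mul_right_cancel₀ h0 ?_⟩
  have := k.lm.symm.trans (h.lm.trans h3)
  rw [k1, k2] at this
  linarith

theorem sum {ι : Type*} (s : Finset ι) {F : ι → EE n → ℝ} {A L : ι → ℝ} {G : ι → EE n}
    (h : ∀ i ∈ s, Jt v x (F i) (A i) (G i) (L i)) :
    Jt v x (fun y => ∑ i ∈ s, F i y) (∑ i ∈ s, A i) (∑ i ∈ s, G i) (∑ i ∈ s, L i) := by
  classical
  induction s using Finset.induction_on with
  | empty => simpa using const 0
  | insert i s hi ih =>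
    simp only [Finset.sum_insert hi]
    exact (h i (Finset.mem_insert_self i s)).add (ih fun j hj => h j (Finset.mem_insert_of_mem hj))

theorem aff (c : ℝ) (a : EE n) :
    Jt v x (aff c a x) c a (-(2 * √2 * v x * ⟪∇ (dd v) x, a⟫)) :=
  ⟨c2_of (aff_sm ..) x, aff_self .., ext_inner_right ℝ fun h => by
    rw [inner_grad, (hasFDerivAt_aff c a x x).fderiv, innerSL_apply_apply],
    by rw [Lm_aff, dr, inner_grad]⟩

theorem dd (hv : Sol v) : Jt v x (dd v) (dd v x) (∇ (dd v) x) (-√2 * v x * (2 - tt v x)) :=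
  ⟨c2_of hv.dd_sm x, rfl, rfl, hv.Lm_dd x⟩

theorem dr (hv : Sol v) (u : EE n) : Jt v x (fun y => ⟪∇ (N067.dd v) y, u⟫) ⟪∇ (N067.dd v) x, u⟫
    (hop (N067.dd v) x u) (-qq v x * ⟪∇ (N067.dd v) x, u⟫) := by
  have e : (fun y => ⟪∇ (N067.dd v) y, u⟫) = V.dr u (N067.dd v) := funext fun y => inner_grad ..
  rw [e, inner_grad]
  exact ⟨c2_of (dr_sm hv.dd_sm u) x, rfl, grad_dr (c2_of hv.dd_sm x) u, Lm_dr hv u x⟩

/-- `f ∘` (an affine reflection) -/
theorem iso (hv : Sol v) (R : EE n ≃ₗᵢ[ℝ] EE n) (hR : ∀ a b, ⟪R a, b⟫ = ⟪a, R b⟫) (z : EE n) :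
    Jt v x (fun y => N067.dd v (z - R x + R y)) (N067.dd v z) (R (∇ (N067.dd v) z))
      (-√2 * v z * tt v z - 2 * √2 * v x * ⟪∇ (N067.dd v) x, R (∇ (N067.dd v) z)⟫) := by
  have zx : z - R x + R x = z := sub_add_cancel ..
  have h1 : ∇ (fun y => N067.dd v (z - R x + R y)) x = R (∇ (N067.dd v) z) :=
    ext_inner_right ℝ fun h => by
      have := (hv.dd_diff (z - R x + R x)).hasFDerivAt.comp x
        ((R.toContinuousLinearEquiv.hasFDerivAt (x := x)).const_add (z - R x))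
      rw [inner_grad, show fderiv ℝ (fun y => N067.dd v (z - R x + R y)) x = _ from this.fderiv,
        zx, hR, inner_grad]
      rfl
  exact ⟨((hv.dd_cd 2).comp (contDiff_const.add R.toContinuousLinearEquiv.contDiff)).contDiffAt,
    by rw [zx], h1, by rw [Lm, lap_isom (hv.dd_cd 2), zx, hv.lap_dd, h1]⟩

end Jt

theorem normSq_eq (a : EE n) : ‖a‖ ^ 2 = ∑ i, ⟪ev i, a⟫ * ⟪ev i, a⟫ := by
  rw [EuclideanSpace.real_norm_sq_eq]
  exact Finset.sum_congr rfl fun i _ => by simp [ev, EuclideanSpace.inner_single_left, sq]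

theorem sum_ev (a : EE n) : ∑ i, ⟪ev i, a⟫ • ev i = a := by
  simpa [ev] using (EuclideanSpace.basisFun (Fin n) ℝ).sum_repr' a

/-- the jet of the norm of a vector field -/
theorem Jt.norm {W : EE n → EE n} {om : EE n} {y lw : ℝ} {M : EE n → EE n} {L : EE n → ℝ}
    (h : ∀ u, Jt v x (fun p => ⟪u, W p⟫) ⟪u, W x⟫ (M u) (L u)) (hW : ContDiffAt ℝ 2 W x)
    (hx : W x = y • om) (hy : 0 < y) (ho : ‖om‖ = 1) (hl : L om = lw) :
    Jt v x (fun p => ‖W p‖) y (M om) (lw + ((∑ i, ‖M (ev i)‖ ^ 2) - ‖M om‖ ^ 2) / y) := by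
  have h0 : ‖W x‖ = y := by rw [hx, norm_smul, ho, mul_one, Real.norm_of_nonneg hy.le]
  have h1 := Jt.sum Finset.univ fun i _ =>
    ((h (ev i)).sub (Jt.const ⟪ev i, W x⟫)).mul ((h (ev i)).sub (Jt.const ⟪ev i, W x⟫))
  have h2 := (((h om).cmul (2 * y)).sub (Jt.const (y ^ 2))).add h1
  have c2 : ContDiffAt ℝ 2 (fun p => ‖W p‖) x :=
    hW.norm ℝ (norm_pos_iff.1 (h0 ▸ hy))
  have k := (Jt.of v c2).mul (Jt.of v c2)
  have e : (fun p => ‖W p‖ * ‖W p‖) = fun p => 2 * y * ⟪om, W p⟫ - y ^ 2 +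
      ∑ i, (⟪ev i, W p⟫ - ⟪ev i, W x⟫) * (⟪ev i, W p⟫ - ⟪ev i, W x⟫) := funext fun p => by
    simp only [← inner_sub_right, ← normSq_eq]
    rw [norm_sub_sq_real, h0, hx, real_inner_smul_right, real_inner_comm]
    ring
  rw [e] at k
  have k2 := k.grad.symm.trans h2.grad
  have k3 := k.lm.symm.trans h2.lm
  simp only [h0, sub_self, zero_smul, add_zero, Finset.sum_const_zero, sub_zero, mul_zero, zero_mul,
    zero_add, real_inner_self_eq_norm_sq, ← Finset.mul_sum, hl] at k2 k3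
  have k4 : ∇ (fun p => ‖W p‖) x = M om :=
    smul_right_injective _ (show 2 * y ≠ 0 by positivity) (by
      simp only [← k2]; rw [two_mul, add_smul])
  refine ⟨c2, h0, k4, ?_⟩
  rw [k4] at k3
  field_simp
  linarith

/-! ### Frobenius norms -/

/-- squared Frobenius norm -/
def fro (M : EE n →L[ℝ] EE n) : ℝ := ∑ i, ‖M (ev i)‖ ^ 2

theorem fro_hop (hf : ContDiffAt ℝ 2 f x) : fro (hop f x) = hsq f x :=
  Finset.sum_congr rfl fun i _ => by
    rw [normSq_eq]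
    exact Finset.sum_congr rfl fun j _ => by
      rw [real_inner_comm, inner_hop, hs, pdv_pdv_eq hf, sq]

theorem sum_inner_map (M : EE n →L[ℝ] EE n) (u b : EE n) :
    ∑ i, ⟪ev i, u⟫ * ⟪M (ev i), b⟫ = ⟪M u, b⟫ := by
  conv_rhs => rw [← sum_ev u]
  simp only [map_sum, map_smul, sum_inner, real_inner_smul_left]

theorem fro_proj (M : EE n →L[ℝ] EE n) {u : EE n} (hu : ‖u‖ = 1) :
    ∑ i, ‖M (ev i - ⟪ev i, u⟫ • u)‖ ^ 2 = fro M - ‖M u‖ ^ 2 := by
  have h1 := sum_inner_map M u (M u)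
  have h2 := normSq_eq u
  rw [real_inner_self_eq_norm_sq] at h1
  rw [hu, one_pow] at h2
  simp only [map_sub, map_smul, norm_sub_sq_real, real_inner_smul_right, norm_smul, mul_pow,
    Real.norm_eq_abs, sq_abs, Finset.sum_add_distrib, Finset.sum_sub_distrib, ← Finset.mul_sum,
    ← Finset.sum_mul, h1, fro]
  simp only [sq, ← h2]
  ring


/-- the projection as a linear map -/
def PL (ν : EE n) : EE n →L[ℝ] EE n :=
  ContinuousLinearMap.id ℝ _ - (innerSL ℝ ν).smulRight ν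

theorem PL_apply (ν u : EE n) : PL ν u = Pj ν u := by simp [PL, Pj, real_inner_comm]

theorem fro_PL (M : EE n →L[ℝ] EE n) {ν : EE n} (hν : ‖ν‖ = 1) :
    fro (M ∘L PL ν) = fro M - ‖M ν‖ ^ 2 := by
  rw [← fro_proj M hν]
  exact Finset.sum_congr rfl fun i _ => by rw [ContinuousLinearMap.comp_apply, PL_apply, Pj]

theorem normSq_Pj {ν : EE n} (hν : ‖ν‖ = 1) (u : EE n) : ‖Pj ν u‖ ^ 2 = ‖u‖ ^ 2 - ⟪u, ν⟫ ^ 2 := by
  rw [Pj, norm_sub_sq_real, real_inner_smul_right, norm_smul, hν, mul_one, Real.norm_eq_abs, sq_abs]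
  ring

theorem inner_Pj {ν : EE n} (hν : ‖ν‖ = 1) (u : EE n) : ⟪Pj ν u, ν⟫ = 0 := by
  rw [Pj, inner_sub_left, real_inner_smul_left, real_inner_self_eq_norm_sq, hν]; ring

theorem normSq_add3 (a b c : EE n) {κ : ℝ} (hκ : 0 < κ) :
    ‖a + b + c‖ ^ 2 ≤ (1 + κ) * ‖a‖ ^ 2 + 2 * (1 + κ⁻¹) * (‖b‖ ^ 2 + ‖c‖ ^ 2) := by
  have h1 : ‖a + b + c‖ ≤ ‖a‖ + (‖b‖ + ‖c‖) := norm_add₃_le.trans_eq (add_assoc _ _ _)
  have h2 := amgm' (s := -(‖a‖ * (‖b‖ + ‖c‖))) (u := ‖a‖) (w := ‖b‖ + ‖c‖) hκ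
    (by rw [abs_neg, abs_of_nonneg (by positivity)])
  have h3 : (‖b‖ + ‖c‖) ^ 2 ≤ 2 * (‖b‖ ^ 2 + ‖c‖ ^ 2) := by nlinarith [sq_nonneg (‖b‖ - ‖c‖)]
  have h4 := mul_le_mul_of_nonneg_left h3 (show 0 ≤ 1 + κ⁻¹ by positivity)
  have h5 := pow_le_pow_left₀ (norm_nonneg _) h1 2
  rw [div_eq_mul_inv] at h2
  nlinarith

/-- the Frobenius term of the identity -/
theorem fro_bound (A : EE n →L[ℝ] EE n) {ν om τ X Y g : EE n} (ho : ‖om‖ = 1) (hν : ‖ν‖ = 1)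
    {M : EE n → EE n} (hM : ∀ u, M u = A u + ⟪ν, u⟫ • X + ⟪τ, u⟫ • g + ⟪om, u⟫ • Y) {κ : ℝ}
    (hκ : 0 < κ) : (∑ i, ‖M (ev i)‖ ^ 2) - ‖M om‖ ^ 2 ≤ (1 + κ) * fro A
      + 2 * (1 + κ⁻¹) * (‖Pj ν om‖ ^ 2 * ‖X‖ ^ 2 + ‖τ‖ ^ 2 * ‖g‖ ^ 2) := by
  set M' : EE n →L[ℝ] EE n := A + (innerSL ℝ ν).smulRight X + (innerSL ℝ τ).smulRight g
    + (innerSL ℝ om).smulRight Y
  have e : ∀ u, M u = M' u := fun u => by simp [hM, M']
  have hoo : ⟪om, om⟫ = 1 := by rw [real_inner_self_eq_norm_sq, ho, one_pow]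
  have h1 := fro_proj M' ho
  have h2 := fro_proj A ho
  have h3 : ∀ b : EE n, ∑ i, ⟪b, ev i - ⟪ev i, om⟫ • om⟫ ^ 2 = ‖b‖ ^ 2 - ⟪b, om⟫ ^ 2 := fun b => by
    rw [← normSq_Pj ho, normSq_eq]
    exact Finset.sum_congr rfl fun i _ => by
      rw [Pj, inner_sub_right, inner_sub_right, real_inner_smul_right, real_inner_smul_right,
        real_inner_comm b]
      ring
  simp only [e]
  change fro M' - _ ≤ _
  rw [← h1]
  refine (Finset.sum_le_sum fun i _ => (?_ : _ ≤ (1 + κ) * ‖A (ev i - ⟪ev i, om⟫ • om)‖ ^ 2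
    + 2 * (1 + κ⁻¹) * (⟪ν, ev i - ⟪ev i, om⟫ • om⟫ ^ 2 * ‖X‖ ^ 2
      + ⟪τ, ev i - ⟪ev i, om⟫ • om⟫ ^ 2 * ‖g‖ ^ 2))).trans ?_
  · rw [← e, hM, show ⟪om, ev i - ⟪ev i, om⟫ • om⟫ = 0 by
      rw [inner_sub_right, real_inner_smul_right, hoo, real_inner_comm]; ring, zero_smul, add_zero]
    refine (normSq_add3 _ _ _ hκ).trans_eq ?_
    simp only [norm_smul, mul_pow, Real.norm_eq_abs, sq_abs]
  · simp only [Finset.sum_add_distrib, ← Finset.mul_sum, ← Finset.sum_mul, h2, h3]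
    rw [normSq_Pj hν, hν, ho, real_inner_comm ν om]
    gcongr
    · exact sub_le_self _ (sq_nonneg _)
    · exact sub_le_self _ (sq_nonneg _)

end

end Crest.Agent.N067.X2
end

-- ▼ part N067/X2/Sph
section

/-!
# Row 67, block X2 (helper63): the exact second order identity at a sphere contact

centre `c = x + (al r - d) ν + r τ`, `y1 = |z - c| - ga r`, competitor `z + R (· - x)`.
-/

set_option autoImplicit false

open MeasureTheory Laplacian InnerProductSpace Topology Filter Set Metric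
open scoped RealInnerProductSpace ContDiff Gradient

namespace Crest.Agent.N067.X2

open Crest.Agent.R077 Crest.Agent.N067.V Crest.Agent.N067.M

noncomputable section

variable {n : ℕ} {v f : EE n → ℝ} {x g z τ om : EE n} {r l al ga sg : ℝ}

theorem grad_eq (hN : 0 < NN v x) : ∇ (dd v) x = NN v x • nu v x := by
  rw [nu, smul_smul, mul_inv_cancel₀ hN.ne', one_smul, nn]

theorem nn_c2 (hv : Sol v) (x : EE n) : ContDiffAt ℝ 2 (nn v) x :=
  contDiffAt_euclidean.2 fun i => by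
    simpa only [nn, grad_apply] using c2_of (hv.pdv_dd_sm i) x

theorem NN_c2 (hv : Sol v) (hN : 0 < NN v x) : ContDiffAt ℝ 2 (NN v) x := gN_sm hv hN (k := 2)

theorem nu_c2 (hv : Sol v) (hN : 0 < NN v x) : ContDiffAt ℝ 2 (nu v) x :=
  ((NN_c2 hv hN).inv hN.ne').smul (nn_c2 hv x)

/-- `B ν` -/
def Bu (v : EE n → ℝ) (x : EE n) : EE n := hop (dd v) x (nu v x)

/-- `T² = |B|² - |B ν|²` -/
def T2 (v : EE n → ℝ) (x : EE n) : ℝ := hsq (dd v) x - ‖Bu v x‖ ^ 2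

/-- the transpose of `Dν` -/
def AA (v : EE n → ℝ) (x : EE n) : EE n →L[ℝ] EE n := (NN v x)⁻¹ • (hop (dd v) x ∘L PL (nu v x))

theorem AA_apply (u : EE n) : AA v x u = (NN v x)⁻¹ • hop (dd v) x (Pj (nu v x) u) := by
  simp [AA, PL_apply]

theorem fro_AA (hv : Sol v) (hN : 0 < NN v x) : fro (AA v x) = T2 v x / NN v x ^ 2 := by
  rw [T2, Bu, ← fro_hop (c2_of hv.dd_sm x), ← fro_PL _ (Wd.norm_nu hN), fro, fro, Finset.sum_div]
  refine Finset.sum_congr rfl fun i _ => ?_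
  rw [AA, smul_apply, norm_smul, mul_pow, Real.norm_eq_abs, sq_abs]
  field_simp

theorem jN (hv : Sol v) (hN : 0 < NN v x) :
    Jt v x (NN v) (NN v x) (Bu v x) (T2 v x / NN v x - qq v x * NN v x) := by
  have h : ∇ (gN v) x = Bu v x := by
    rw [grad_gN hv hN, grad_eq hN, map_smul, smul_smul]
    exact (congrArg (· • _) (inv_mul_cancel₀ hN.ne')).trans (one_smul _ _)
  exact ⟨NN_c2 hv hN, rfl, h, (Lm_gN hv hN).trans (by rw [gsq_eq, h]; rfl)⟩

theorem jnu (hv : Sol v) (hN : 0 < NN v x) (u : EE n) :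
    Jt v x (fun y => ⟪nu v y, u⟫) ⟪nu v x, u⟫ (AA v x u)
      (-(T2 v x / NN v x ^ 2) * ⟪nu v x, u⟫ - 2 * ⟪AA v x u, Bu v x⟫ / NN v x) := by
  refine (Jt.dr hv u).of_mul (jN hv hN) hN.ne' ((nu_c2 hv hN).inner ℝ contDiffAt_const) ?_ ?_ ?_ ?_
  · filter_upwards [(NN_c2 hv hN).continuousAt.eventually (lt_mem_nhds hN)] with y hy
    rw [grad_eq hy, real_inner_smul_left, mul_comm]
  · rw [grad_eq hN, real_inner_smul_left, mul_comm]
  · rw [AA_apply, smul_smul, mul_inv_cancel₀ hN.ne', one_smul, Pj, map_sub, map_smul, Bu,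
      real_inner_comm, sub_add_cancel]
  · rw [grad_eq hN, real_inner_smul_left]
    field_simp
    ring

theorem jF {L Y : EE n → ℝ} {L0 lL lY : ℝ} {gL gY : EE n} (hL : Jt v x L L0 gL lL)
    (hY : Jt v x Y (sg * L0) gY lY) (h0 : L0 ≠ 0) :
    Jt v x (fun p => (L p ^ 2 - Y p ^ 2) / (2 * L p)) (L0 * (1 - sg ^ 2) / 2)
      (((1 + sg ^ 2) / 2) • gL - sg • gY)
      ((1 + sg ^ 2) / 2 * lL - sg * lY - ‖gY - sg • gL‖ ^ 2 / L0) := by
  refine ((hL.mul hL).sub (hY.mul hY)).of_mul (hL.cmul 2) (mul_ne_zero two_ne_zero h0)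
    (((hL.c2.pow 2).sub (hY.c2.pow 2)).div (contDiffAt_const.mul hL.c2)
      (hL.val ▸ mul_ne_zero two_ne_zero h0)) ?_ (by ring) ?_ ?_
  · filter_upwards [hL.c2.continuousAt.eventually_ne (hL.val ▸ h0 : L x ≠ 0)] with y hy
    field_simp
  · match_scalars <;> ring
  · simp only [norm_sub_sq_real, inner_sub_left, real_inner_smul_left, real_inner_smul_right,
      norm_smul, mul_pow, Real.norm_eq_abs, sq_abs, real_inner_self_eq_norm_sq]
    field_simp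
    ring

theorem exists_R {ν : EE n} (hν : ‖ν‖ = 1) (ho : ‖om‖ = 1) (hc : 0 < 1 + ⟪om, ν⟫) :
    ∃ R : EE n ≃ₗᵢ[ℝ] EE n,
      ∀ u, R u = u - ((⟪ν, u⟫ + ⟪om, u⟫) * (1 + ⟪om, ν⟫)⁻¹) • (ν + om) := by
  have h1 : ‖ν + om‖ ^ 2 = 2 * (1 + ⟪om, ν⟫) := by
    rw [norm_add_sq_real, hν, ho, real_inner_comm]; ring
  have h2 : ‖ν + om‖ ≠ 0 := fun h => by rw [h] at h1; linarith
  obtain ⟨R, hR⟩ := exists_refl (e := ‖ν + om‖⁻¹ • (ν + om)) (by rw [norm_smul, norm_inv, norm_norm, inv_mul_cancel₀ h2])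
  refine ⟨R, fun u => ?_⟩
  rw [hR, smul_smul, real_inner_smul_left, inner_add_left]
  congr 2
  field_simp
  rw [h1, mul_right_comm]

/-- the vector from the centre to the competitor -/
def Wv (v : EE n → ℝ) (R : EE n ≃ₗᵢ[ℝ] EE n) (x z τ : EE n) (al : ℝ) (p : EE n × ℝ) : EE n :=
  z - R x + R p.1 - p.1 - (al * p.2 - dd v p.1) • nu v p.1 - p.2 • Pj (nu v p.1) τ

/-- the defect -/
def Ps (v : EE n → ℝ) (R : EE n ≃ₗᵢ[ℝ] EE n) (x z τ : EE n) (al ga : ℝ) (p : EE n × ℝ) : ℝ :=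
  dd v (z - R x + R p.1) - (dd v p.1 + gp (NN v p.1) (p.2 - dd v p.1) (‖Wv v R x z τ al p‖ - ga * p.2))

variable {R : EE n ≃ₗᵢ[ℝ] EE n}

theorem Wv_c2 (hv : Sol v) (hN : 0 < NN v x) : ContDiffAt ℝ 2 (Wv v R x z τ al) (x, r) := by
  have h1 : ContDiffAt ℝ 2 (fun p : EE n × ℝ => nu v p.1) (x, r) :=
    ContDiffAt.comp (g := nu v) (x, r) (nu_c2 hv hN) contDiffAt_fst
  have h2 : ContDiffAt ℝ 2 (fun p : EE n × ℝ => dd v p.1) (x, r) :=
    ContDiffAt.comp (g := dd v) (x, r) (c2_of hv.dd_sm x) contDiffAt_fst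
  have h3 : ContDiffAt ℝ 2 (fun p : EE n × ℝ => R p.1) (x, r) :=
    R.toContinuousLinearEquiv.contDiff.contDiffAt.comp (x, r) contDiffAt_fst
  exact (((contDiffAt_const.add h3).sub contDiffAt_fst).sub
    (((contDiffAt_const.mul contDiffAt_snd).sub h2).smul h1)).sub
    (contDiffAt_snd.smul (contDiffAt_const.sub ((contDiffAt_const.inner ℝ h1).smul h1)))

theorem Ps_c2 (hv : Sol v) (hN : 0 < NN v x) (hL : r - dd v x ≠ 0)
    (hW : Wv v R x z τ al (x, r) ≠ 0) : ContDiffAt ℝ 2 (Ps v R x z τ al ga) (x, r) := by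
  have h1 : ContDiffAt ℝ 2 (fun p : EE n × ℝ => NN v p.1) (x, r) :=
    ContDiffAt.comp (g := NN v) (x, r) (NN_c2 hv hN) contDiffAt_fst
  have h2 : ContDiffAt ℝ 2 (fun p : EE n × ℝ => dd v p.1) (x, r) :=
    ContDiffAt.comp (g := dd v) (x, r) (c2_of hv.dd_sm x) contDiffAt_fst
  have h3 : ContDiffAt ℝ 2 (fun p : EE n × ℝ => R p.1) (x, r) :=
    R.toContinuousLinearEquiv.contDiff.contDiffAt.comp (x, r) contDiffAt_fst
  exact ((c2_of hv.dd_sm _).comp (x, r) (contDiffAt_const.add h3)).sub (h2.add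
    ((h1.mul (((contDiffAt_snd.sub h2).pow 2).sub ((((Wv_c2 hv hN).norm ℝ hW).sub
      (contDiffAt_const.mul contDiffAt_snd)).pow 2))).div
      (contDiffAt_const.mul (contDiffAt_snd.sub h2)) (mul_ne_zero two_ne_zero hL)))

theorem jW (hv : Sol v) (hN : 0 < NN v x) (hR : ∀ a b, ⟪R a, b⟫ = ⟪a, R b⟫)
    (hτ : ⟪nu v x, τ⟫ = 0) (hf : Jt v x f r g l) (u : EE n) :
    Jt v x (fun p => ⟪u, Wv v R x z τ al (p, f p)⟫) ⟪u, Wv v R x z τ al (x, f x)⟫
      (R u - u - (al * r - dd v x) • AA v x u - ⟪nu v x, u⟫ • (al • g - NN v x • nu v x)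
        - ⟪τ, u⟫ • g + (r * ⟪nu v x, u⟫) • AA v x τ)
      (-(2 * √2 * v x * NN v x * ⟪nu v x, R u - u⟫)
        - (al * l + √2 * v x * (2 - tt v x)) * ⟪nu v x, u⟫
        - 2 * ⟪al • g - NN v x • nu v x, AA v x u⟫
        + (al * r - dd v x) *
          (T2 v x / NN v x ^ 2 * ⟪nu v x, u⟫ + 2 * ⟪AA v x u, Bu v x⟫ / NN v x)
        - l * ⟪τ, u⟫ + 2 * ⟪nu v x, u⟫ * ⟪g, AA v x τ⟫
        + r * (2 * ⟪AA v x τ, AA v x u⟫ - 2 * ⟪nu v x, u⟫ * ⟪AA v x τ, Bu v x⟫ / NN v x)) := by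
  have h := ((Jt.aff (v := v) (x := x) ⟪u, z - x⟫ (R u - u)).sub
    (((hf.cmul al).sub (Jt.dd hv)).mul (jnu hv hN u))).sub
    (hf.mul ((Jt.const ⟪τ, u⟫).sub ((jnu hv hN τ).mul (jnu hv hN u))))
  have e : (fun p => ⟪u, Wv v R x z τ al (p, f p)⟫) = fun p => aff ⟪u, z - x⟫ (R u - u) x p
      - (al * f p - dd v p) * ⟪nu v p, u⟫ - f p * (⟪τ, u⟫ - ⟪nu v p, τ⟫ * ⟪nu v p, u⟫) :=
    funext fun p => by
      simp only [Wv, Pj, aff, inner_sub_right, inner_add_right, inner_sub_left, hR,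
        real_inner_smul_right, real_inner_comm u (nu v p), real_inner_comm u τ,
        real_inner_comm τ (nu v p)]
      ring
  rw [← e] at h
  refine h.cast h.val.symm ?_ ?_
  · rw [hτ, grad_eq hN]; module
  · simp only [hτ, grad_eq hN, real_inner_smul_left, inner_sub_right, inner_add_right,
      real_inner_smul_right, inner_zero_right]
    ring

/-- `-∂_r` of the defect -/
def La (v : EE n → ℝ) (x τ om : EE n) (al ga sg : ℝ) : ℝ :=
  NN v x * sg * (al * ⟪nu v x, om⟫ + ga + ⟪τ, om⟫) + NN v x * (1 + sg ^ 2) / 2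

/-- `∇_x` of the defect -/
def Ga (v : EE n → ℝ) (r : ℝ) (x τ om : EE n) (al sg : ℝ) : EE n :=
  -(NN v x * sg) • Pj (nu v x) om
    - (NN v x - NN v x ^ 2 * (1 + sg ^ 2) / 2 + NN v x * sg * ⟪nu v x, om⟫ * (1 - NN v x)) • nu v x
    - ((r - dd v x) * (1 - sg ^ 2) / 2) • Bu v x - (NN v x * sg * (al * r - dd v x)) • AA v x om
    + (NN v x * sg * r * ⟪nu v x, om⟫) • AA v x τ

/-- the vector in the Frobenius term -/
def Xv (v : EE n → ℝ) (r : ℝ) (x τ om g : EE n) (al : ℝ) : EE n :=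
  r • AA v x τ - (1 - NN v x) • nu v x - (1 + ⟪om, nu v x⟫)⁻¹ • Pj (nu v x) om - al • g

/-- `sg (∇ y1 - sg ∇ L)` -/
def Qv (v : EE n → ℝ) (r : ℝ) (x g : EE n) (sg : ℝ) : EE n :=
  ((1 - sg ^ 2) / 2) • g + ((1 - sg) * (1 - NN v x * (1 + sg) / 2)) • nu v x
    + ((r - dd v x) * (1 - sg ^ 2) / 2 / NN v x) • Bu v x

/-- the right hand side of the identity (the Frobenius term is estimated) -/
def RH (v : EE n → ℝ) (r : ℝ) (x z τ om g : EE n) (al ga sg κ : ℝ) : ℝ :=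
  -(√2 * (v z - v x) * tt v z - qq v x * (dd v z - dd v x))
    + √2 * v x * (1 - NN v x) ^ 2 * ((tt v z - 1 - NN v x ^ 2) / (2 * NN v x)
      - NN v x * sg * ⟪nu v x, om⟫)
    + NN v x * sg * ((1 + κ) * ((al * r - dd v x) ^ 2 * (T2 v x / NN v x ^ 2)) + 2 * (1 + κ⁻¹) *
      (‖Pj (nu v x) om‖ ^ 2 * ‖Xv v r x τ om g al‖ ^ 2 + ‖τ‖ ^ 2 * ‖g‖ ^ 2))
        / (sg * (r - dd v x) + ga * r)
    + (sg * (al * r - dd v x) * ⟪nu v x, om⟫ - (r - dd v x) * (1 - sg ^ 2) / 2) * T2 v x / NN v x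
    + 2 * sg * (al * r - dd v x) * ⟪AA v x om, Bu v x⟫
    - 2 * NN v x * sg * ⟪al • g - NN v x • nu v x, AA v x om⟫
    + 2 * NN v x * sg * ⟪nu v x, om⟫ * ⟪g, AA v x τ⟫
    + 2 * sg * r * (NN v x * ⟪AA v x τ, AA v x om⟫ - ⟪nu v x, om⟫ * ⟪AA v x τ, Bu v x⟫)
    + NN v x * ‖Qv v r x g sg‖ ^ 2 / sg ^ 2 / (r - dd v x)
    + 2 * (1 - sg) * ⟪Bu v x, nu v x⟫ + (r - dd v x) * (1 - sg ^ 2) * ‖Bu v x‖ ^ 2 / NN v x

/-- the data of a sphere contact -/
structure SD (v : EE n → ℝ) (r : ℝ) (x z τ om : EE n) (al ga sg : ℝ) : Prop where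
  hv : Sol v
  hN : 0 < NN v x
  hL : 0 < r - dd v x
  hs : 0 < sg
  hy : 0 < sg * (r - dd v x) + ga * r
  hτ : ⟪nu v x, τ⟫ = 0
  ho : ‖om‖ = 1
  hc : 0 < 1 + ⟪om, nu v x⟫
  hz : z = x + (al * r - dd v x) • nu v x + r • τ + (sg * (r - dd v x) + ga * r) • om
  dz : dd v z = dd v x + NN v x * ((r - dd v x) * (1 - sg ^ 2) / 2)
  gz : ∇ (dd v) z = -(NN v x * sg) • om

theorem SD.Wx (D : SD v r x z τ om al ga sg) :
    Wv v R x z τ al (x, r) = (sg * (r - dd v x) + ga * r) • om := by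
  have := D.hz
  rw [Wv, Pj, real_inner_comm, D.hτ, sub_add_cancel]
  generalize z = z' at *
  rw [this]
  module

theorem SD.tz (D : SD v r x z τ om al ga sg) : tt v z = 1 - NN v x ^ 2 * sg ^ 2 := by
  rw [tt, D.gz, norm_smul, D.ho, mul_one, Real.norm_eq_abs, sq_abs]; ring

/-- **the identity** -/
theorem SD.jet (D : SD v r x z τ om al ga sg)
    (hR : ∀ u, R u = u - ((⟪nu v x, u⟫ + ⟪om, u⟫) * (1 + ⟪om, nu v x⟫)⁻¹) • (nu v x + om))
    (hf : Jt v x f r g l) : ∃ l', Jt v x (fun p => Ps v R x z τ al ga (p, f p)) 0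
      (Ga v r x τ om al sg - La v x τ om al ga sg • g) l' ∧
      (La v x τ om al ga sg • g = Ga v r x τ om al sg → ∀ κ > 0,
        l' + La v x τ om al ga sg * l ≤ RH v r x z τ om g al ga sg κ) := by
  obtain ⟨hv, hN, hL, hs, hy, hτ, ho, hc, -, dz, gz⟩ := id D
  have hν := Wd.norm_nu hN
  have νν : ⟪nu v x, nu v x⟫ = 1 := by rw [real_inner_self_eq_norm_sq, hν, one_pow]
  have oo : ⟪om, om⟫ = 1 := by rw [real_inner_self_eq_norm_sq, ho, one_pow]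
  have hc' : (1 + ⟪om, nu v x⟫) ≠ 0 := hc.ne'
  have Rs : ∀ a b, ⟪R a, b⟫ = ⟪a, R b⟫ := fun a b => by
    simp only [hR, inner_sub_left, inner_sub_right, real_inner_smul_left, real_inner_smul_right,
      inner_add_left, inner_add_right, real_inner_comm a]
    ring
  have Ro : R om = -nu v x := by
    rw [hR, oo, real_inner_comm, add_comm _ (1 : ℝ), mul_inv_cancel₀ hc']; module
  have cW : ContDiffAt ℝ 2 (fun p => Wv v R x z τ al (p, f p)) x :=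
    ContDiffAt.comp (g := Wv v R x z τ al) x (hf.val ▸ Wv_c2 hv hN) (contDiffAt_id.prodMk hf.c2)
  have jy := Jt.norm (jW (z := z) (al := al) hv hN Rs hτ hf) cW (by rw [hf.val]; exact D.Wx) hy ho rfl
  have jL := hf.sub (Jt.dd hv)
  have j1 := (jy.sub (hf.cmul ga)).cast (a' := sg * (r - dd v x)) (by ring) rfl rfl
  have j2 := jF jL j1 hL.ne'
  have j3 := (Jt.iso hv R Rs z).sub ((Jt.dd hv).add ((jN hv hN).mul j2))
  have hG := j3.grad
  have hA := fun κ (hκ : 0 < κ) => fro_bound (-(al * r - dd v x) • AA v x) ho hν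
    (M := fun u => R u - u - (al * r - dd v x) • AA v x u
      - ⟪nu v x, u⟫ • (al • g - NN v x • nu v x) - ⟪τ, u⟫ • g + (r * ⟪nu v x, u⟫) • AA v x τ)
    (τ := τ) (X := Xv v r x τ om g al) (Y := -(1 + ⟪om, nu v x⟫)⁻¹ • (nu v x + om)) (g := -g)
    (fun u => by
      rw [hR, Xv, Pj, smul_apply]
      match_scalars <;> field_simp <;> ring) hκ
  have fA : fro (-(al * r - dd v x) • AA v x) = (al * r - dd v x) ^ 2 * (T2 v x / NN v x ^ 2) := by
    rw [← fro_AA hv hN, fro, fro, Finset.mul_sum]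
    exact Finset.sum_congr rfl fun i _ => by
      rw [smul_apply, norm_smul, mul_pow, Real.norm_eq_abs, sq_abs, neg_sq]
  simp only [fA, norm_neg] at hA
  generalize (∑ i, ‖R (ev i) - ev i - (al * r - dd v x) • AA v x (ev i)
    - ⟪nu v x, ev i⟫ • (al • g - NN v x • nu v x) - ⟪τ, ev i⟫ • g
    + (r * ⟪nu v x, ev i⟫) • AA v x τ‖ ^ 2) - _ = HS at hA j3
  refine ⟨_, (j3.congr (Eventually.of_forall fun p => ?_)).cast (by rw [dz]; ring) ?_ rfl,
    fun h κ hκ => ?_⟩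
  · simp only [Ps, gp, mul_div_assoc]
  · rw [gz, map_smul, Ro, grad_eq hN, Ga, La, Pj, real_inner_comm om (nu v x)]
    match_scalars <;> ring
  · have q1 : R om - om - (al * r - dd v x) • AA v x om
        - ⟪nu v x, om⟫ • (al • g - NN v x • nu v x) - ⟪τ, om⟫ • g
        + (r * ⟪nu v x, om⟫) • AA v x τ - ga • g =
        sg • (g - ∇ (dd v) x) + sg⁻¹ • Qv v r x g sg := by
      have h2 : (NN v x * sg)⁻¹ • (La v x τ om al ga sg • g) =
        (NN v x * sg)⁻¹ • Ga v r x τ om al sg := by rw [h]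
      rw [← sub_eq_zero] at h2 ⊢
      rw [← neg_eq_zero, ← h2, Ro, grad_eq hN, Qv, Ga, La, Pj, real_inner_comm om (nu v x)]
      match_scalars <;> field_simp <;> ring
    have h3 := div_le_div_of_nonneg_right (hA κ hκ) hy.le
    have h4 := mul_le_mul_of_nonneg_left h3 (mul_pos hN hs).le
    rw [q1, add_sub_cancel_left, RH, gz, map_smul, Ro, grad_eq hN, La, dz, D.tz, norm_smul, mul_pow,
      Real.norm_eq_abs, sq_abs, show tt v x = 1 - NN v x ^ 2 from rfl]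
    simp only [Qv, inner_sub_right, inner_add_right, real_inner_smul_right, real_inner_smul_left,
      inner_neg_right, νν, real_inner_self_eq_norm_sq (Bu v x)]
    refine le_of_sub_nonneg ((sub_nonneg.2 h4).trans_eq ?_)
    field_simp
    ring

end

end Crest.Agent.N067.X2
end

-- ▼ part N067/X2/Fx

/-!
# Row 67, block X2 (helper41): first order estimates at thin cap and rim contacts
-/

set_option autoImplicit false

open MeasureTheory Laplacian InnerProductSpace Topology Filter Set Metric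
open scoped RealInnerProductSpace ContDiff Gradient

namespace Crest.Agent.N067.X2

open Crest.Agent.R077 Crest.Agent.N067.V Crest.Agent.N067.M

noncomputable section

variable {n : ℕ} {β : Bo} {ν w om : EE n}

theorem IsCap.tl (h : IsCap β ν w om) (hν : ‖ν‖ = 1) (ho : ‖om‖ = 1) :
    β.η * (1 - ⟪om, ν⟫) ≤ 2 * β.h ∧ ‖Pj ν w‖ ≤ 4 * ‖Pj ν om‖ ∧
      (β.η - β.h) * ⟪om, ν⟫ ≤ ⟪om, w⟫ := by
  obtain ⟨hw, hlt⟩ := h
  have h0 := β.η0; have h1 := β.η1; have h2 := β.h0; have h3 := β.h1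
  have hc : ⟪om, ν⟫ ≤ 1 := by simpa [hν, ho] using real_inner_le_norm om ν
  have e1 : ‖w‖ ^ 2 = (3 + β.η - β.h) ^ 2 - 6 * (3 + β.η - β.h) * ⟪om, ν⟫ + 9 := by
    rw [hw, norm_sub_sq_real, norm_smul, norm_smul, ho, hν, real_inner_smul_left,
      real_inner_smul_right, mul_one, mul_one, Real.norm_eq_abs, Real.norm_eq_abs, sq_abs, sq_abs]
    ring
  have e2 : ⟪om, w⟫ = 3 + β.η - β.h - 3 * ⟪om, ν⟫ := by
    rw [hw, inner_sub_right, real_inner_smul_right, real_inner_smul_right,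
      real_inner_self_eq_norm_sq, ho]
    ring
  have e3 : Pj ν w = (3 + β.η - β.h) • Pj ν om := by
    rw [hw, Pj, Pj, inner_sub_left, real_inner_smul_left, real_inner_smul_left,
      real_inner_self_eq_norm_sq, hν]
    module
  have h4 := pow_lt_pow_left₀ hlt (norm_nonneg _) two_ne_zero
  have h5 : 1 - ⟪om, ν⟫ ≤ β.h := by nlinarith
  refine ⟨by nlinarith, ?_, by nlinarith⟩
  rw [e3, norm_smul, Real.norm_of_nonneg (by linarith)]
  exact mul_le_mul_of_nonneg_right (by linarith) (norm_nonneg _)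

/-- the real part of the proof -/
theorem fx_real {ε δ K La t tz N Nz c s o r gn g a b u q : ℝ} (hε : 0 < ε) (hK : 0 ≤ K)
    (hL1 : 1 ≤ La) (hL2 : 2 ≤ (1 + ε) * La) (hL3 : La ≤ 21 / 10) (ht : 0 ≤ t) (ht1 : t ≤ 1)
    (hz : 0 ≤ tz) (hz1 : tz ≤ 1) (hN : 0 ≤ 1 - N) (hN1 : 1 - N ≤ t) (hNz : 9 / 10 ≤ Nz)
    (hq0 : 0 ≤ 1 - Nz * c) (hq : 1 - Nz * c ≤ tz + o) (hq1 : 1 - Nz * c ≤ 1) (hs : 0 ≤ s)
    (hs1 : s ≤ 1) (hso : s ≤ o) (ho : o ≤ 2 * s) (hr : 1 ≤ r) (hg : |gn| ≤ g)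
    (hn : La * gn = -((t + tz) / 2) + (1 - N) * (1 - Nz * c) - a)
    (ha : |a| ≤ K * t * u) (ha' : |a| ≤ b) (hu : u ≤ r * (t + tz + 6 * s))
    (hb : b ≤ (t + tz + 6 * s) / 100) (hT : Nz * s ≤ La * g + b) (hG : La * g ≤ s + 3 + b)
    (hδ : δ ≤ 2 * (t + tz)) (hqq : q ≤ δ + o) :
    q ≤ (40 + 30 * K) * (g + t) ∧ g ≤ 40 + 30 * K ∧ |gn| ≤ (40 + 30 * K) * (tz + r * t) ∧
      gn ≤ (40 + 30 * K) * r * t * (o + t + tz) ∧
      -gn ≤ (1 + ε) * (t + tz) / 4 + (40 + 30 * K) * r * t * (o + t + tz) := by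
  have hg0 : 0 ≤ g := (abs_nonneg _).trans hg
  have h1 : 0 ≤ (1 - N) * (1 - Nz * c) := mul_nonneg hN hq0
  have h2 : (1 - N) * (1 - Nz * c) ≤ t * (tz + o) := mul_le_mul hN1 hq hq0 ht
  have h3 : (1 - N) * (1 - Nz * c) ≤ t := (mul_le_of_le_one_right hN hq1).trans hN1
  obtain ⟨a1, a2⟩ := abs_le.1 ha'
  obtain ⟨g1, g2⟩ := abs_le.1 hg
  have hrt : t ≤ r * t := le_mul_of_one_le_left ht hr
  set X := r * t * (o + t + tz) with hX
  have hX0 : 0 ≤ X := mul_nonneg (by linarith) (by linarith)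
  have hX1 : X ≤ 4 * (r * t) := by
    rw [hX, mul_comm 4]; exact mul_le_mul_of_nonneg_left (by linarith) (by linarith)
  have h4 : |a| ≤ 6 * K * X := by
    refine ha.trans ((mul_le_mul_of_nonneg_left (hu.trans (mul_le_mul_of_nonneg_left
      (show t + tz + 6 * s ≤ 6 * (o + t + tz) by linarith) (by linarith))) (mul_nonneg hK ht)).trans_eq ?_)
    rw [hX]; ring
  obtain ⟨b1, b2⟩ := abs_le.1 h4
  have h5 : t * (tz + o) ≤ X := mul_le_mul hrt (by linarith) (by linarith) (by linarith)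
  have hKX : 0 ≤ K * X := mul_nonneg hK hX0
  have h6 : gn ≤ X + 6 * K * X := by
    by_contra h
    have := le_mul_of_one_le_left (show 0 ≤ gn by linarith) hL1
    linarith
  have h7 : -gn ≤ (1 + ε) * (t + tz) / 4 + 6 * K * X := by
    refine le_of_mul_le_mul_left ?_ (show 0 < La by linarith)
    have := le_mul_of_one_le_left hKX hL1
    have := mul_le_mul_of_nonneg_right hL2 (show 0 ≤ t + tz by linarith)
    nlinarith
  have h8 : -gn ≤ (t + tz) / 2 + 6 * K * X := by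
    by_contra h
    have := le_mul_of_one_le_left (show 0 ≤ -gn by linarith) hL1
    linarith
  have h9 : La * g ≤ 21 / 10 * g := mul_le_mul_of_nonneg_right hL3 hg0
  have h10 : -(La * gn) ≤ La * g := by
    rw [← mul_neg]; exact mul_le_mul_of_nonneg_left (by linarith) (by linarith)
  have h11 : 9 / 10 * s ≤ Nz * s := mul_le_mul_of_nonneg_right hNz hs
  have h12 : g ≤ La * g := le_mul_of_one_le_left hg0 hL1
  have hK1 := mul_nonneg hK hg0
  have hK2 := mul_nonneg hK ht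
  have hK3 := mul_nonneg hK hz
  have hK4 := mul_le_mul_of_nonneg_left hX1 hK
  have hK5 := mul_nonneg hK (ht.trans hrt)
  have hrt0 : 0 ≤ r * t := ht.trans hrt
  have e1 : (40 + 30 * K) * (g + t) = 40 * g + 40 * t + 30 * (K * g) + 30 * (K * t) := by ring
  have e2 : (40 + 30 * K) * (tz + r * t) =
      40 * tz + 40 * (r * t) + 30 * (K * tz) + 30 * (K * (r * t)) := by ring
  have e3 : (40 + 30 * K) * r * t * (o + t + tz) = 40 * X + 30 * (K * X) := by rw [hX]; ring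
  have e4 : K * (4 * (r * t)) = 4 * (K * (r * t)) := by ring
  have e5 : 6 * K * X = 6 * (K * X) := by ring
  rw [e1, e2, e3]
  rw [e4] at hK4
  rw [e5] at h6 h7 h8 b1 b2
  clear_value X
  refine ⟨by linarith, by linarith, abs_le.2 ⟨by linarith, by linarith⟩, by linarith, by linarith⟩

/-- numerical facts on slopes and angles -/
theorem fx_num {δ η h N Z sg c p : ℝ} (hδ0 : 0 < δ) (hδ : δ ≤ 1 / 100) (hη : 0 < η)
    (hη1 : η ≤ 1 / 100) (hh : 0 < h) (hβ : h ≤ δ * η) (hN0 : 0 ≤ N) (hN1 : N ≤ 1) (hZ1 : Z ≤ 1)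
    (ht : 1 - N ^ 2 ≤ δ) (eS : N * sg = Z) (s1 : |1 - sg| ≤ δ) (hc1 : c ≤ 1)
    (k1 : η * (1 - c) ≤ 2 * h) (k3 : (η - h) * c ≤ p) (hp : p ≤ η) :
    1 - c ≤ 2 * δ ∧ 9 / 10 ≤ Z ∧ 2 - 7 * δ ≤ Z * (c + p - η) + N * (1 + sg ^ 2) / 2 ∧
      Z * (c + p - η) + N * (1 + sg ^ 2) / 2 ≤ 21 / 10 ∧
      |1 - sg ^ 2| ≤ 11 / 10 * ((1 - N ^ 2) + (1 - Z ^ 2)) ∧ 0 ≤ 1 - Z * c ∧ 1 - Z * c ≤ 1 ∧
      1 - Z * c ≤ (1 - Z ^ 2) + (1 - c) := by
  obtain ⟨s1, s2⟩ := abs_le.1 s1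
  have hc2 : 1 - c ≤ 2 * δ := le_of_mul_le_mul_left (by linarith) hη
  have hN : 1 - δ ≤ N := by nlinarith
  have h2 : 1 - 2 * δ ≤ Z := by
    have := mul_le_mul hN (show 1 - δ ≤ sg by linarith) (by linarith) hN0
    nlinarith
  have hZ0 : 0 ≤ Z := by linarith
  have h0 : h ≤ δ / 100 := by nlinarith
  have h1 : 1 - 3 * δ ≤ c + p - η := by nlinarith
  have h3 := mul_le_mul h2 h1 (by linarith) hZ0
  have h4 := mul_le_mul hZ1 (show c + p - η ≤ 1 by linarith) (by linarith) zero_le_one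
  have h5 : 2 - 2 * δ ≤ 1 + sg ^ 2 := by nlinarith
  have h6 := mul_le_mul hN h5 (by linarith) hN0
  have h7 := mul_le_mul hN1 (show 1 + sg ^ 2 ≤ 22 / 10 by nlinarith) (by positivity) zero_le_one
  have h8 := sq_nonneg δ
  have h9 : N ^ 2 * (1 - sg ^ 2) = (1 - Z ^ 2) - (1 - N ^ 2) := by rw [← eS]; ring
  have h10 : 0 ≤ 1 - Z ^ 2 := by nlinarith
  have h11 : 0 ≤ 1 - N ^ 2 := by nlinarith
  have h12 : N ^ 2 * |1 - sg ^ 2| ≤ (1 - N ^ 2) + (1 - Z ^ 2) := by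
    rw [← abs_of_nonneg (sq_nonneg N), ← abs_mul, h9, abs_of_nonneg (sq_nonneg N), abs_le]
    constructor <;> linarith
  have h13 := mul_le_mul_of_nonneg_right (show 99 / 100 ≤ N ^ 2 by linarith)
    (abs_nonneg (1 - sg ^ 2))
  have h14 := mul_le_mul hZ1 hc1 (by linarith) zero_le_one
  have h15 := mul_nonneg hZ0 (show 0 ≤ c by linarith)
  refine ⟨hc2, by linarith, by linarith, by linarith, by linarith, by linarith, by linarith, ?_⟩
  nlinarith [mul_nonneg (sub_nonneg.2 hZ1) hZ0, mul_nonneg (sub_nonneg.2 hZ1) (sub_nonneg.2 hc1)]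

theorem fx_ang {c s o : ℝ} (hc0 : 0 ≤ c) (hc1 : c ≤ 1) (hs : 0 ≤ s) (ho : 0 ≤ o)
    (es : s ^ 2 = 1 - c ^ 2) (eo : o ^ 2 = 2 - 2 * c) :
    s ≤ 1 ∧ s ≤ o ∧ o ≤ 2 * s ∧ 1 - c ≤ o :=
  ⟨by nlinarith, (abs_le_of_sq_le_sq' (by nlinarith) ho).2,
    (abs_le_of_sq_le_sq' (by nlinarith) (by linarith)).2,
    (abs_le_of_sq_le_sq' (by nlinarith) ho).2⟩

theorem norm_mv {v : EE n → ℝ} {x : EE n} {r : ℝ} (hν : ‖nu v x‖ = 1) (hw : ‖w‖ ≤ 1 / 100)
    (hc0 : 0 ≤ ⟪om, nu v x⟫) (hc1 : ⟪om, nu v x⟫ ≤ 1) (hd : |dd v x| ≤ r / 100)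
    (k2 : ‖Pj (nu v x) w‖ ≤ 4 * ‖Pj (nu v x) om‖) :
    ‖mv v r x w om‖ ≤ 51 / 10 * r * ‖Pj (nu v x) om‖ := by
  have hr : 0 ≤ r := by linarith [abs_nonneg (dd v x)]
  obtain ⟨d1, d2⟩ := abs_le.1 hd
  have hs0 := norm_nonneg (Pj (nu v x) om)
  have e : ⟪w, nu v x⟫ • om - ⟪om, nu v x⟫ • w =
      ⟪w, nu v x⟫ • Pj (nu v x) om - ⟪om, nu v x⟫ • Pj (nu v x) w := by
    rw [Pj, Pj]; module
  have h1 : |⟪w, nu v x⟫| ≤ 1 / 100 := by
    have := abs_real_inner_le_norm w (nu v x)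
    rw [hν] at this; linarith
  have h2 : ‖⟪w, nu v x⟫ • om - ⟪om, nu v x⟫ • w‖ ≤
      1 / 100 * ‖Pj (nu v x) om‖ + 1 * (4 * ‖Pj (nu v x) om‖) := by
    rw [e]
    refine (norm_sub_le _ _).trans ?_
    rw [norm_smul, norm_smul, Real.norm_eq_abs, Real.norm_of_nonneg hc0]
    exact add_le_add (mul_le_mul_of_nonneg_right h1 hs0)
      (mul_le_mul hc1 k2 (norm_nonneg _) zero_le_one)
  rw [mv]
  refine (norm_add_le _ _).trans ?_
  rw [norm_smul, norm_smul, Real.norm_of_nonneg (by linarith : 0 ≤ r - dd v x),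
    Real.norm_of_nonneg hr]
  have h3 := mul_le_mul_of_nonneg_left h2 hr
  have h4 := mul_le_mul_of_nonneg_right (show r - dd v x ≤ 101 / 100 * r by linarith) hs0
  have h5 := mul_nonneg hr hs0
  linarith

/-- the three consequences of `La • g = -Z • P om - A • ν - B` -/
theorem fx_vec {La Z A : ℝ} {g B : EE n} (hν : ‖ν‖ = 1) (hL : 0 ≤ La) (hZ0 : 0 ≤ Z) (hZ1 : Z ≤ 1)
    (hA : |A| ≤ 3) (hG : La • g = -Z • Pj ν om - A • ν - B) :
    La * ⟪g, ν⟫ = -A - ⟪B, ν⟫ ∧ Z * ‖Pj ν om‖ ≤ La * ‖g‖ + ‖B‖ ∧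
      La * ‖g‖ ≤ ‖Pj ν om‖ + 3 + ‖B‖ := by
  have hs0 := norm_nonneg (Pj ν om)
  refine ⟨?_, ?_, ?_⟩
  · have := congrArg (fun y => ⟪y, ν⟫) hG
    simp only [inner_sub_left, real_inner_smul_left, inner_Pj hν, real_inner_self_eq_norm_sq,
      hν] at this
    linarith
  · have h1 := congrArg (fun y => ⟪y, Pj ν om⟫) hG
    simp only [inner_sub_left, real_inner_smul_left, real_inner_comm (Pj ν om) ν, inner_Pj hν,
      real_inner_self_eq_norm_sq] at h1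
    have h2 := (abs_le.1 (abs_real_inner_le_norm g (Pj ν om))).1
    have h3 := (abs_le.1 (abs_real_inner_le_norm B (Pj ν om))).1
    rcases hs0.eq_or_lt with h | h
    · rw [← h, mul_zero]; positivity
    · refine le_of_mul_le_mul_right ?_ h
      nlinarith [mul_le_mul_of_nonneg_left h2 hL]
  · have h1 := congrArg norm hG
    rw [norm_smul, Real.norm_of_nonneg hL] at h1
    rw [h1]
    refine (norm_sub_le _ _).trans (add_le_add_left ((norm_sub_le _ _).trans ?_) _)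
    rw [norm_smul, norm_smul, hν, norm_neg, Real.norm_of_nonneg hZ0, mul_one, Real.norm_eq_abs]
    exact add_le_add (mul_le_of_le_one_left hs0 hZ1) hA

theorem fx (n : ℕ) : FxStmt n := by
  intro ε hε
  obtain ⟨K, hK, hgN⟩ := exists_grad_gN n
  obtain ⟨δ, hδ0, hδ1, hδ2⟩ : ∃ δ : ℝ, 0 < δ ∧ δ ≤ 1 / 100 ∧ 2 ≤ (1 + ε) * (2 - 7 * δ) := by
    refine ⟨min (1 / 100) (ε / (4 * (1 + ε))), lt_min (by norm_num) (by positivity),
      min_le_left _ _, ?_⟩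
    have := (le_div_iff₀ (by positivity)).1 (min_le_right (1 / 100) (ε / (4 * (1 + ε))))
    linarith
  refine ⟨δ, 40 + 30 * K, hδ0, by linarith, fun β hβ v r x w om z g hv hS hC hT hG hB => ?_⟩
  have ht := hv.tt_nonneg x
  have htz := hv.tt_nonneg z
  have eN : tt v x = 1 - NN v x ^ 2 := rfl
  have eZ : tt v z = 1 - NN v z ^ 2 := rfl
  have hN1 := NN_le_one hv x
  have hZ1 := NN_le_one hv z
  have hN0 : 0 ≤ NN v x := norm_nonneg _
  have htδ := hS.t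
  have hr := hS.r
  have hNt : 1 - NN v x ≤ tt v x := by nlinarith
  have hN : 0 < NN v x := by linarith
  have hν := Wd.norm_nu hN
  have ho := hC.unit
  obtain ⟨k1, k2, k3⟩ : β.η * (1 - ⟪om, nu v x⟫) ≤ 2 * β.h ∧
      ‖Pj (nu v x) w‖ ≤ 4 * ‖Pj (nu v x) om‖ ∧ (β.η - β.h) * ⟪om, nu v x⟫ ≤ ⟪om, w⟫ :=
    hT.elim (fun h => h.tl hν ho) fun h => ⟨h.1, h.2.2⟩
  have hw : ‖w‖ ≤ β.η := hC.mem.1
  have eS : NN v x * (NN v z / NN v x) = NN v z := mul_div_cancel₀ _ hN.ne'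
  have hc1 : ⟪om, nu v x⟫ ≤ 1 := by simpa [hν, ho] using real_inner_le_norm om (nu v x)
  have how : ⟪om, w⟫ ≤ β.η := by
    have := real_inner_le_norm om w
    rw [ho] at this; linarith
  obtain ⟨hc2, hZ, hL1, hL2, hsq, hq0, hq1, hq2⟩ := fx_num hδ0 hδ1 β.η0 β.η1 β.h0 hβ hN0 hN1 hZ1
    (eN ▸ htδ) eS hC.sgl hc1 k1 k3 how
  rw [← eN, ← eZ] at hsq
  rw [← eZ] at hq2
  have hc0 : 0 ≤ ⟪om, nu v x⟫ := by linarith
  obtain ⟨a1, a2, a3, a4⟩ := fx_ang hc0 hc1 (norm_nonneg (Pj (nu v x) om))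
    (norm_nonneg (om - nu v x)) (by rw [normSq_Pj hν, ho, one_pow])
    (by rw [norm_sub_sq_real, ho, hν]; ring)
  have hd : |dd v x| ≤ r / 100 :=
    hS.d.trans ((mul_le_mul_of_nonneg_right hδ1 (by linarith)).trans_eq (by ring))
  have hmv := norm_mv hν (hw.trans β.η1) hc0 hc1 hd k2
  obtain ⟨d1, d2⟩ := abs_le.1 hd
  obtain ⟨s1, s2⟩ := abs_le.1 hC.sgl
  have eA : NN v x - NN v x ^ 2 * (1 + (NN v z / NN v x) ^ 2) / 2 +
      NN v z * ⟪om, nu v x⟫ * (1 - NN v x) =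
      (tt v x + tt v z) / 2 - (1 - NN v x) * (1 - NN v z * ⟪om, nu v x⟫) := by
    rw [mul_add, ← mul_pow, eS, eN, eZ]; ring
  rw [G0, Lam, eS, eA] at hG
  set sg := NN v z / NN v x with hsg
  set s := ‖Pj (nu v x) om‖ with hs
  have hs0 : 0 ≤ s := norm_nonneg _
  set u := ((r - dd v x) * (1 - sg ^ 2) / 2) • nu v x + sg • mv v r x w om with hu
  have hun : ‖u‖ ≤ r * (tt v x + tt v z + 6 * s) := by
    refine (norm_add_le _ _).trans ?_
    rw [norm_smul, norm_smul, hν, mul_one, Real.norm_eq_abs, abs_div, abs_mul, abs_two,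
      abs_of_nonneg (by linarith : 0 ≤ r - dd v x), Real.norm_of_nonneg (by linarith : 0 ≤ sg)]
    have h1 := mul_le_mul (show r - dd v x ≤ 101 / 100 * r by linarith) hsq (abs_nonneg _)
      (by linarith)
    have h2 := mul_le_mul (show sg ≤ 101 / 100 by linarith) hmv (norm_nonneg _) (by norm_num)
    have h5 := mul_nonneg (show 0 ≤ r by linarith) hs0
    have h6 := mul_nonneg (show 0 ≤ r by linarith) (add_nonneg ht htz)
    linarith
  have hBu : ‖hop (dd v) x u‖ ≤ (tt v x + tt v z + 6 * s) / 100 := by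
    have h3 := mul_le_mul_of_nonneg_left hun (show 0 ≤ Bn v x from Real.sqrt_nonneg _)
    have h4 := mul_le_mul_of_nonneg_right hB (show 0 ≤ tt v x + tt v z + 6 * s by positivity)
    linarith [Bl.norm_hop hv x u]
  have hz1 := tt_le_one v z
  have h1 : 0 ≤ (1 - NN v x) * (1 - NN v z * ⟪om, nu v x⟫) := mul_nonneg (by linarith) hq0
  have h2 : (1 - NN v x) * (1 - NN v z * ⟪om, nu v x⟫) ≤ 1 := mul_le_one₀ (by linarith) hq0 hq1
  obtain ⟨v1, v2, v3⟩ := fx_vec hν (by linarith) (by linarith) hZ1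
    (abs_le.2 ⟨by linarith, by linarith⟩) hG
  refine fx_real (δ := |1 - sg|) (N := NN v x) (Nz := NN v z) (c := ⟪om, nu v x⟫)
    (a := ⟪hop (dd v) x u, nu v x⟫) (u := ‖u‖) hε hK (by linarith)
    (hδ2.trans (mul_le_mul_of_nonneg_left hL1 (by linarith))) hL2 ht (by linarith) htz hz1
    (by linarith) hNt hZ hq0 (by linarith) hq1 hs0 a1 a2 a3 hr ?_ (by linarith) ?_ ?_ hun hBu
    v2 v3 ?_ ?_
  · simpa [hν] using abs_real_inner_le_norm g (nu v x)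
  · rw [hop_symm (c2_of hv.dd_sm x)]
    refine (abs_real_inner_le_norm _ _).trans ((mul_comm _ _).trans_le ?_)
    refine mul_le_mul_of_nonneg_right ?_ (norm_nonneg _)
    have := hgN v hv x (show 1 / 2 ≤ NN v x by linarith)
    rwa [show ∇ (gN v) x = Bu v x from (jN hv hN).grad] at this
  · simpa [hν] using abs_real_inner_le_norm (hop (dd v) x u) (nu v x)
  · refine le_trans ?_ (hsq.trans (by linarith))
    rw [show 1 - sg ^ 2 = (1 - sg) * (1 + sg) by ring, abs_mul]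
    exact le_mul_of_one_le_right (abs_nonneg _) (le_trans (by linarith) (le_abs_self _))
  · rw [show sg • om - nu v x = -((1 - sg) • om) + (om - nu v x) by module]
    refine (norm_add_le _ _).trans_eq ?_
    rw [norm_neg, norm_smul, ho, mul_one, Real.norm_eq_abs]

end

end Crest.Agent.N067.X2
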